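import Vale.Agent.P287D.Pg.Uni
import Vale.Agent.P287D.Ku.St

/-!
# P287D: the extension of canonical forms from the extension theorem
-/

open Set

noncomputable section

namespace Vale.Agent.P287D

namespace Pg

variable {K : Type} [Field K] [Algebra ℂ K]

theorem isZ_cn (n : ℕ) : IsZ (cn K n) := fun P => by
  unfold cn
  split_ifs
  · unfold kap
    split_ifs
    exacts [⟨_, rfl⟩, ⟨0, Int.cast_zero.symm⟩]
  · exact ⟨0, Int.cast_zero.symm⟩

theorem isZ_carZ {β : BD K} (h : β ∈ CarZ K) : IsZ β := by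
  induction h using AddSubgroup.closure_induction with
  | mem _ h => obtain ⟨s, rfl⟩ := h; exact int_mx s
  | zero => exact fun _ => ⟨0, Int.cast_zero.symm⟩
  | add a b _ _ h h' =>
    exact fun P => let ⟨x, e⟩ := h P; let ⟨y, e'⟩ := h' P
      ⟨x + y, by rw [Pi.add_apply, e, e', Int.cast_add]⟩
  | neg a _ h => exact fun P => let ⟨x, e⟩ := h P; ⟨-x, by rw [Pi.neg_apply, e, Int.cast_neg]⟩

theorem dv_carZ (f : K) : dv f ∈ CarZ K := dv_eq_mx f ▸ AddSubgroup.subset_closure ⟨_, rfl⟩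

theorem rd_zero (P : Pl K) : P.rd 0 = 0 :=
  (dif_pos (zero_mem _)).trans (map_zero (IsLocalRing.residue P.ring))

theorem ord_of_rd (P : Pl K) {f : K} (h : P.rd f ≠ 0) : f ≠ 0 ∧ P.ord f = 0 := by
  have h0 : f ≠ 0 := fun e => h (e ▸ rd_zero P)
  by_cases m : f ∈ P.ring
  · refine ⟨h0, ?_⟩
    have e : P.rd f = IsLocalRing.residue P.ring ⟨f, m⟩ := dif_pos m
    have k := mt ((IsLocalRing.residue_eq_zero_iff _).trans
      (P297Z.Pl.mem_maximalIdeal_iff P.toPlace ⟨f, m⟩)).2 (e ▸ h)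
    have k' := P297Z.Pl.ord_nonneg_of_mem P.toPlace m
    exact le_antisymm (not_lt.1 fun a => k (.inr a)) k'
  · exact (h (dif_neg m)).elim

theorem adj_dv (hR : RES) {n : ℕ} (hK : FF K (n + 1)) (P : Pl K) {g : K} (hg : g ≠ 0) :
    ∃ b, b ≠ 0 ∧ adj n P (dv g) = dv b := by
  unfold adj
  split_ifs with h
  · obtain ⟨a, b, -⟩ := h.choose_spec
    have k := mul_ne_zero hg a
    have k' : P.rd (g * h.choose.1 / P.t ^ P.ord (g * h.choose.1)) ≠ 0 :=
      rd_ne P (div_ne_zero k (zpow_ne_zero _ P.t_ne)) (by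
        rw [div_eq_mul_inv, ← zpow_neg, P.ord_mul_t k, add_neg_cancel])
    exact ⟨_, div_ne_zero k' b, by rw [← dv_mul hg a, hR.pri n K hK P _ k, dv_div k' b]⟩
  · exact ⟨1, one_ne_zero, dv_one.symm⟩

theorem gr_of (hE : EXTU) (hR : RES) : GR := by
  intro n K _ _ hK P L w hL hn hb h0 hw
  obtain ⟨z, hz⟩ := isZ_cn (K := K) (n + 1) P
  obtain ⟨l, hl⟩ := isZ_carZ hL P
  have g0 : P.t ^ (z + 1) ≠ 0 := zpow_ne_zero _ P.t_ne
  obtain ⟨b, b0, hb'⟩ := adj_dv hR hK P g0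
  have eP : dv (P.t ^ (z + 1)) P = z + 1 := by rw [dv_apply, P.ord_t_zpow, Int.cast_add, Int.cast_one]
  have e1 : res P (L + dv (P.t ^ (z + 1))) = res P L := by
    rw [hR.add n K hK P _ (car_of_carZ hL) _ (car_of_carZ (dv_carZ _)), hR.pri n K hK P _ g0,
      P.ord_t_zpow, div_self g0]
    have : P.rd 1 = 1 := (dif_pos (one_mem _)).trans (map_one (IsLocalRing.residue P.ring))
    rw [this, dv_one, add_zero]
  obtain ⟨f, hf, e⟩ := hE n K hK P (dv (P.t ^ (z + 1))) (L + dv (P.t ^ (z + 1))) (l + (z + 1))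
    (w * b) (car_of_carZ (dv_carZ _)) (by simp only [dsc, Pi.sub_apply, hz, eP]; ring)
    (add_mem hL (dv_carZ _)) (by rw [Pi.add_apply, hl, eP]; push_cast; ring)
    (by rwa [add_sub_cancel_right]) (by rwa [add_sub_cancel_right]) (by
      rw [e1, hb']
      refine (hw.mul (sec_of_mem (Finset.mem_singleton_self b))).mono fun Q => ?_
      have := Int.le_ceil (dsc n (dv b) Q)
      simp only [dsc, mx_single, Pi.add_apply, Pi.sub_apply, Pi.neg_apply] at this ⊢
      linarith)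
  obtain ⟨k0, k1⟩ := ord_of_rd P (e ▸ mul_ne_zero h0 b0)
  have f0 : f ≠ 0 := left_ne_zero_of_mul k0
  rw [P.ord_mul_t f0] at k1
  refine ⟨f, f0, ?_, fun R hR' => ?_⟩
  · have : ((P.ord f + (l + (z + 1)) : ℤ) : ℝ) = 0 := by rw [k1, Int.cast_zero]
    simp only [Pi.add_apply, dv_apply, hz, hl]
    push_cast at this
    linarith
  · have k := (hf.resolve_left f0).2 R hR'
    obtain ⟨y, hy⟩ := isZ_cn (K := K) (n + 1) R
    have e2 : dsc (n + 1) (dv (P.t ^ (z + 1))) R = (y - R.ord (P.t ^ (z + 1)) : ℤ) := by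
      simp only [dsc, Pi.sub_apply, hy, dv_apply, Int.cast_sub]
    rw [e2, Int.ceil_intCast] at k
    simp only [Pi.add_apply, dv_apply, hy, Int.cast_sub] at k ⊢
    linarith

end Pg

theorem uni_of' (hE : EXTU) (hR : RES) (hN : NEG) : UNI := uni_of (Pg.gr_of hE hR) hR hN

end Vale.Agent.P287D
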