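import Vale.Agent.P287D.St
import Vale.Agent.P287D.Va.Bas

/-!
# P287D: exceptional divisors with positive log discrepancy carry no canonical forms
-/

open Set

noncomputable section

namespace Vale.Agent.P287D

/-- **GR**: canonical forms on a prime divisor are residues (Grauert and Riemenschneider) -/
def GR : Prop := ForS fun n K _ _ => ∀ (P : Pl K) (L : BD K) (w : P.κ), L ∈ CarZ K → Nef L →
  Big L → w ≠ 0 → Sec (cn P.κ n + res P L) w → ∃ f : K, f ≠ 0 ∧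
    (dv f + cn K (n + 1) + L) P = -1 ∧ ∀ R, R ≠ P → 0 ≤ (dv f + cn K (n + 1) + L) R

/-- **UNI**: an exceptional divisor with positive log discrepancy has no canonical forms, also
after a twist by a Cartier divisor of the model -/
def UNI : Prop := ForS fun n K _ _ => ∀ (Λ Γ N : BD K) (P : Pl K), Smp Λ → Big Λ → Dsc Λ Γ →
  Bdy n Λ Γ → ¬ On n Λ P → -1 < dsc (n + 1) Γ P → N ∈ CarZ K → Dsc Λ N →
  ∀ w, Sec (cn P.κ n + res P N) w → w = 0

namespace Pg

variable {K : Type} [Field K] [Algebra ℂ K] {β γ Λ : BD K}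

theorem cmb_add (l l' : Finset K →₀ ℝ) : cmb (l + l') = cmb l + cmb l' :=
  Finsupp.sum_add_index' (fun _ => zero_smul _ _) fun _ _ _ => add_smul _ _ _

theorem cmb_smul (c : ℝ) (l : Finset K →₀ ℝ) : cmb (c • l) = c • cmb l := by
  rw [cmb, cmb, Finsupp.smul_sum]
  exact (Finsupp.sum_smul_index' (h := fun s (c : ℝ) => c • mx s) fun _ => zero_smul _ _).trans
    (Finsupp.sum_congr fun _ _ => mul_smul _ _ _)

theorem smp_mx (s : Finset K) : Smp (mx s) :=
  ⟨Finsupp.single s 1, Finsupp.single_nonneg.2 zero_le_one,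
    ((Finsupp.sum_single_index (h := fun s (c : ℝ) => c • mx s) (zero_smul _ _)).trans
      (one_smul _ _)).symm⟩

theorem smp_add (h : Smp β) (h' : Smp γ) : Smp (β + γ) := by
  obtain ⟨l, a, rfl⟩ := h
  obtain ⟨l', a', rfl⟩ := h'
  exact ⟨l + l', add_nonneg a a', (cmb_add _ _).symm⟩

theorem smp_smul {c : ℝ} (hc : 0 ≤ c) (h : Smp β) : Smp (c • β) := by
  obtain ⟨l, a, rfl⟩ := h
  exact ⟨c • l, smul_nonneg hc a, (cmb_smul _ _).symm⟩

theorem smp_zero : Smp (0 : BD K) := by simpa using smp_mx (∅ : Finset K)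

theorem smp_sum {ι : Type*} (T : Finset ι) {b : ι → BD K} (h : ∀ i ∈ T, Smp (b i)) :
    Smp (∑ i ∈ T, b i) :=
  Finset.sum_induction _ _ (fun _ _ => smp_add) smp_zero h

theorem smp_dv (c : ℝ) (f : K) : Smp (c • dv f) := by
  rcases le_total 0 c with h | h
  · rw [dv_eq_mx]
    exact smp_smul h (smp_mx _)
  · have e : c • dv f = (-c) • mx {f} := by rw [mx_single, neg_smul, smul_neg, neg_neg]
    rw [e]
    exact smp_smul (neg_nonneg.2 h) (smp_mx _)

theorem eff_add (h : Eff β) (h' : Eff γ) : Eff (β + γ) := by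
  obtain ⟨G, a, b⟩ := h
  obtain ⟨G', a', b'⟩ := h'
  refine ⟨G + G', add_nonneg a a', ?_⟩
  rw [add_sub_add_comm]
  exact add_mem b b'

theorem smp_eff (h : Smp β) : Eff β := by
  obtain ⟨l, a, rfl⟩ := h
  refine Finset.sum_induction _ _ (fun _ _ => eff_add) ⟨0, le_rfl, by simp⟩ fun s _ => ?_
  obtain ⟨u, ⟨f, hf, h0⟩, e⟩ := exists_nz s
  refine ⟨l s • (dv f + mx s), smul_nonneg (a s) (e ▸ dv_add_mx_nonneg hf h0), ?_⟩
  rw [smul_add, add_sub_cancel_right]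
  exact Submodule.smul_mem _ _ (Submodule.subset_span ⟨f, rfl⟩)

theorem smp_nef (h : Smp β) : Nef β := ⟨∅, fun _ _ => by simpa using h⟩

theorem dsc_add (h : Dsc Λ β) (h' : Dsc Λ γ) : Dsc Λ (β + γ) := by
  obtain ⟨a, ha, p, q⟩ := h
  obtain ⟨b, hb, p', q'⟩ := h'
  have s : 0 < a + b := add_pos ha hb
  have k1 : 0 ≤ b / (a + b) := by positivity
  have k2 : 0 ≤ a / (a + b) := by positivity
  refine ⟨a * b / (a + b), by positivity, ?_, ?_⟩
  · convert smp_add (smp_smul k1 p) (smp_smul k2 p') using 1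
    funext P
    simp only [Pi.add_apply, Pi.smul_apply, smul_eq_mul]
    field_simp
    ring
  · convert smp_add (smp_smul k1 q) (smp_smul k2 q') using 1
    funext P
    simp only [Pi.add_apply, Pi.sub_apply, Pi.smul_apply, smul_eq_mul]
    field_simp
    ring

theorem dsc_dv (hΛ : Smp Λ) (f : K) : Dsc Λ (dv f) :=
  ⟨1, one_pos, smp_add hΛ (smp_dv 1 f), by
    rw [sub_eq_add_neg, ← neg_smul]
    exact smp_add hΛ (smp_dv _ f)⟩

/-- a free integral class which defines the same model -/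
theorem exists_sys (hΛ : Smp Λ) : ∃ (s : Finset K) (c C : ℝ), Nz s ∧ 0 < c ∧ 0 < C ∧
    Smp (Λ - c • mx s) ∧ Smp (C • mx s - Λ) := by
  obtain ⟨l, a, rfl⟩ := hΛ
  obtain ⟨s, hs, e⟩ := exists_mx_sum l.support id
  obtain ⟨c, hc, hc'⟩ : ∃ c : ℝ, 0 < c ∧ ∀ u ∈ l.support, c ≤ l u := by
    rcases l.support.eq_empty_or_nonempty with h | h
    · exact ⟨1, one_pos, by simp [h]⟩
    · obtain ⟨u, hu, k⟩ := l.support.exists_min_image l h
      exact ⟨l u, (a u).lt_of_ne' (Finsupp.mem_support_iff.1 hu), k⟩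
  obtain ⟨C, hC⟩ := (l.support.finite_toSet.image l).bddAbove
  refine ⟨s, c, max C 1, hs, hc, lt_max_of_lt_right one_pos, ?_, ?_⟩
  · rw [e, cmb, Finsupp.sum, Finset.smul_sum, ← Finset.sum_sub_distrib]
    exact smp_sum _ fun u hu => by
      rw [id, ← sub_smul]
      exact smp_smul (sub_nonneg.2 (hc' u hu)) (smp_mx _)
  · rw [e, cmb, Finsupp.sum, Finset.smul_sum, ← Finset.sum_sub_distrib]
    exact smp_sum _ fun u hu => by
      rw [id, ← sub_smul]
      exact smp_smul (sub_nonneg.2 (le_max_of_le_left (hC ⟨u, hu, rfl⟩))) (smp_mx _)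

/-- a Cartier divisor of the model becomes semiample and big after a twist by a free class -/
theorem exists_twist (hΛ : Smp Λ) (hb : Big Λ) (h : Dsc Λ β) :
    ∃ s, Nz s ∧ Dsc Λ (mx s) ∧ Smp (β + mx s) ∧ Big (β + mx s) := by
  obtain ⟨s, c, C, hs, hc, hC, p, q⟩ := exists_sys hΛ
  obtain ⟨ε, hε, r, -⟩ := h
  obtain ⟨m, hm⟩ := exists_nat_ge (C / ε + C)
  obtain ⟨u, hu, e⟩ := exists_mx_nsmul s (m + 1)
  have k : Smp (β + mx u - Λ) := by
    have k1 : 0 ≤ ε⁻¹ := by positivity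
    have k2 : 0 ≤ ε⁻¹ + 1 := by positivity
    have k3 : 0 ≤ ((m + 1 : ℕ) : ℝ) - (C / ε + C) := by
      push_cast
      linarith
    convert smp_add (smp_add (smp_smul k1 r) (smp_smul k2 q)) (smp_smul k3 (smp_mx s)) using 1
    funext P
    simp only [e, Pi.add_apply, Pi.sub_apply, Pi.smul_apply, smul_eq_mul]
    field_simp
    ring
  have hm1 : (0 : ℝ) < ((m + 1 : ℕ) : ℝ) := by positivity
  refine ⟨u, hu, ⟨c / ((m + 1 : ℕ) : ℝ), by positivity, ?_, ?_⟩, ?_, fun s₀ => ?_⟩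
  · exact smp_add hΛ (smp_smul (by positivity) (smp_mx _))
  · rwa [e, smul_smul, div_mul_cancel₀ _ hm1.ne']
  · simpa using smp_add k hΛ
  · obtain ⟨δ, hδ, t⟩ := hb s₀
    refine ⟨δ, hδ, ?_⟩
    convert eff_add (smp_eff k) t using 1
    abel

theorem rd_ne (P : Pl K) {f : K} (h0 : f ≠ 0) (h : P.ord f = 0) : P.rd f ≠ 0 := by
  obtain ⟨m, m'⟩ := (P297Z.Pl.ord_eq_zero_iff P.toPlace h0).1 h
  have e : P.rd f = IsLocalRing.residue P.ring ⟨f, m⟩ := dif_pos m
  rw [e]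
  exact ((IsUnit.of_mul_eq_one (⟨f⁻¹, m'⟩ : P.ring) (Subtype.ext (mul_inv_cancel₀ h0))).map
    (IsLocalRing.residue P.ring)).ne_zero

theorem nz_rs (P : Pl K) {s : Finset K} (h : Nz s) : Nz (P.rs s) := by
  classical
  obtain ⟨f, hf, h0, e⟩ := P.exists_mz h
  refine ⟨_, Finset.mem_image_of_mem _ hf, rd_ne P (mul_ne_zero h0 (zpow_ne_zero _ P.t_ne)) ?_⟩
  rw [P.ord_mul_t h0, e, add_neg_cancel]

theorem car_of_carZ (h : β ∈ CarZ K) : β ∈ Car K :=
  (AddSubgroup.closure_le (Car K).toAddSubgroup).2 Submodule.subset_span h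

end Pg

open Pg in
theorem uni_of (hG : GR) (hR : RES) (hN : NEG) : UNI := by
  intro n K _ _ hK Λ Γ N P hΛ hb hΓ hB hP hd hZ hD w hw
  by_contra h0
  obtain ⟨s, hs, d1, s1, b1⟩ := exists_twist hΛ hb hD
  obtain ⟨a, ha, a0⟩ := nz_rs P hs
  have m : mx s ∈ CarZ K := AddSubgroup.subset_closure ⟨s, rfl⟩
  obtain ⟨f, f0, e, hf⟩ := hG n K hK P (N + mx s) (w * a) (add_mem hZ m) (smp_nef s1) b1
    (mul_ne_zero h0 a0) (by
      rw [hR.add n K hK P _ (car_of_carZ hZ) _ (car_of_carZ m), hR.sys n K hK, ← add_assoc]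
      exact hw.mul (sec_of_mem ha))
  have k := (hN.nn n K hK Λ (dv f + Γ + (N + mx s)) hΛ hb
    (dsc_add (dsc_add (dsc_dv hΛ f) hΓ) (dsc_add hD d1)) fun Q hQ => by
      have k1 := hf Q fun h => hP (h ▸ hQ)
      have k2 := hB Q hQ
      simp only [dsc, Pi.add_apply, Pi.sub_apply] at k1 k2 ⊢
      linarith).1 P
  simp only [dsc, Pi.add_apply, Pi.sub_apply, Pi.zero_apply] at k e hd
  linarith

/-- the geometric genus of an exceptional divisor with positive log discrepancy vanishes -/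
theorem UNI.pg (hU : UNI) (hR : RES) {n : ℕ} {K : Type} [Field K] [Algebra ℂ K]
    (hK : FF K (n + 1)) {Λ Γ : BD K} {P : Pl K} (hΛ : Smp Λ) (hb : Big Λ) (hΓ : Dsc Λ Γ)
    (hB : Bdy n Λ Γ) (hP : ¬ On n Λ P) (hd : -1 < dsc (n + 1) Γ P) :
    H0 (cn P.κ n) = ⊥ ∧ pg P.κ n = 0 := by
  have e : H0 (cn P.κ n) = ⊥ := eq_bot_iff.2 fun w hw =>
    hU n K hK Λ Γ 0 P hΛ hb hΓ hB hP hd (zero_mem _) ⟨1, one_pos, by simpa, by simpa⟩ w (by
      have z := hR.smul n K hK P 0 0 (zero_mem _)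
      rw [zero_smul, zero_smul] at z
      rw [z, add_zero]
      exact mem_H0.1 hw)
  exact ⟨e, by rw [P287D.pg, h0, e, finrank_bot]⟩

/-- the terminal case -/
theorem UNI.term (hU : UNI) (hR : RES) {n : ℕ} {K : Type} [Field K] [Algebra ℂ K]
    (hK : FF K (n + 1)) {Λ Γ : BD K} {P : Pl K} (h : Term n Λ Γ) (hP : ¬ On n Λ P) :
    H0 (cn P.κ n) = ⊥ ∧ P287D.pg P.κ n = 0 :=
  hU.pg hR hK h.smp h.big h.hull.1 (fun Q hQ => by simp [dsc, h.hull.2 Q hQ]) hP
    (by linarith [h.pos P hP])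

end Vale.Agent.P287D
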