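import Vale.Agent.P287D.Mm.St
import Vale.Agent.P287D.Sh.St
import Vale.Agent.P287D.Ba.Hy
import Vale.Agent.P287D.In.Int
import Vale.Agent.P287D.Pb.Gd
import Vale.Agent.P287D.Va.Fld
import Vale.Agent.P287D.Pr.Ls
import Vale.Agent.P287D.Pr.Neg

/-!
# P287D: generic hyperplane sections; terminal varieties are smooth in codimension two
-/

open Set

noncomputable section

namespace Vale.Agent.P287D.Pg

open In

variable {n : ℕ} {K K' : Type} [Field K] [Algebra ℂ K] [Field K'] [Algebra ℂ K']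
  {s : Finset K} {φ : K →+* K'} {f : K'} {Λ Γ β : BD K}

/-- the generic member of the big system `s` -/
structure Cut (n : ℕ) (s : Finset K) (φ : K →+* K') (f : K') : Prop where
  gm : GM s φ
  fk : FF K (n + 2)
  fk' : FF K' (n + 1)
  big : Big (mx s)
  tr : Tr (n + 1) n φ (mx s) (fun Λ => Dsc Λ (mx s)) f
  num : ∀ (Z : BD K) (γ : Fin n → BD K), IsB (n + 1) Z → (∀ j, γ j ∈ Car K) →
    I (n + 2) K (Fin.cons Z (Fin.cons (mx s) γ)) =
      I (n + 1) K' (Fin.cons (pb φ Z) fun j => pb φ (γ j))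

theorem dim_big (hK : FF K n) (h : Big Λ) : dim Λ = n := by
  rw [dim, h.fld_eq, IntermediateField.topEquiv.trdeg_eq, Bm.trdeg_eq hK, Cardinal.toNat_natCast]

theorem exists_cut (hG : GEN) (hK : FF K (n + 2)) (h : Big (mx s)) :
    ∃ (K' : Type) (_ : Field K') (_ : Algebra ℂ K') (φ : K →+* K') (f : K'), Cut n s φ f := by
  obtain ⟨K', _, _, φ, c, a, b, -, d, e⟩ := hG.gm (n + 1) K hK s (by rw [dim_big hK h]; omega)
  obtain ⟨f, hf⟩ := hG.trm n K K' φ s a hK b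
  refine ⟨K', _, _, φ, f, a, hK, b, h, hf, fun Z γ hZ hγ => ?_⟩
  have k := e (Fin.cons Z γ) (Fin.cases hZ fun j => hy.isb _ K hK _ (hγ j))
    (Fin.cases (fun z => (z rfl).elim) fun j _ => hγ j)
  rw [d (by rw [dim_big hK h]; omega), Nat.cast_one, one_mul, ← Fin.cons_snoc_eq_snoc_cons,
    Fin.snoc_eq_cons_rotate] at k
  refine Eq.trans ?_ (k.trans (congrArg _ (funext (Fin.cases rfl fun _ => rfl))))
  exact finsum_congr fun P => congrArg (Z P * ·)
    (hy.cf_perm hK P (b := Fin.cons (mx s) γ) (finRotate _)).symm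

namespace Cut

variable (h : Cut n s φ f)

include h

theorem ok : Ok φ := h.gm.cst.ok h.fk h.fk'

theorem big_pb (a : Nef Λ) (b : Big Λ) : Big (pb φ Λ) := by
  refine (big_iff_vol h.fk' (h.ok.nef a)).2 ?_
  rw [vol_succ, ← h.num Λ (fun _ => Λ) (hy.isb _ K h.fk _ a.car) fun _ => a.car]
  exact hy.pos h.fk (cons_mem (p := fun x => Nef x ∧ Big x) ⟨a, b⟩
    (cons_mem (p := fun x => Nef x ∧ Big x) ⟨nef_mx s, h.big⟩ fun _ => ⟨a, b⟩))

/-- the generic member of a free system on a terminal variety is terminal -/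
theorem term (t : Term (n + 1) Λ Γ) (d : Dsc Λ (mx s)) :
    Term n (pb φ Λ) (pb φ (Γ + mx s) - dv f) := by
  have e : ∀ P, dsc (n + 1) (pb φ (Γ + mx s) - dv f) P =
      (cn K' (n + 1) + dv f - pb φ (mx s)) P - pb φ Γ P := fun P => by
    simp only [dsc, pb_add, Pi.add_apply, Pi.sub_apply]
    ring
  refine ⟨h.ok.smp t.smp, h.big_pb t.smp.nef t.big, ⟨(h.ok.dsc (t.hull.1.add d)).sub
    (.dv (h.ok.smp t.smp) f), fun P hP => (sub_eq_zero.1 ((e P).trans ?_)).symm⟩, fun P hP => ?_⟩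
  · rcases h.tr.on Λ t.smp t.big d P hP with ⟨a, b⟩ | ⟨Q, a, b, c, k⟩
    · rw [Pi.sub_apply, b, Trv.pb a, Trv.pb a, sub_zero, sub_zero]
    · rw [k, a.pb, c, t.hull.2 Q b, Int.cast_one, one_mul, sub_self]
  · obtain ⟨a, b⟩ := h.tr.off Λ t.smp t.big d P hP
    rw [e]
    rcases h.ok P with k | ⟨Q, k⟩
    · rw [Pi.sub_apply, k.pb, k.pb, sub_zero, sub_zero]
      exact one_pos.trans_le (a k)
    · have e1 : (1 : ℝ) ≤ P.ord (φ Q.t) := by exact_mod_cast k.e_pos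
      rw [k.pb Γ]
      by_cases o : On (n + 1) Λ Q
      · have := b Q k o
        rw [t.hull.2 Q o]
        linarith
      · have k1 := h.tr.ge P Q k
        have k2 := t.pos Q o
        simp only [dsc, Pi.sub_apply] at k1 k2 ⊢
        nlinarith

theorem int (a : Smp Λ) (b : Big Λ) (d : Dsc Λ (mx s))
    (k : ∀ Q, On (n + 1) Λ Q → ∃ z : ℤ, β Q = z) (P : Pl K') (hP : On n (pb φ Λ) P) :
    ∃ z : ℤ, pb φ β P = z := by
  rcases h.tr.on Λ a b d P hP with ⟨x, -⟩ | ⟨Q, x, y, z, -⟩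
  · exact ⟨0, by rw [Trv.pb x, Int.cast_zero]⟩
  · rw [x.pb, z, Int.cast_one, one_mul]
    exact k Q y

/-- places with a centre of positive dimension meet the generic member -/
theorem lift (hF : FLD) {P : Pl K} {j : ℕ} (hj : j ≤ n) (k : j + 1 ≤ cd (mx s) P) :
    ∃ P', Lies φ P' P ∧ P'.ord (φ P.t) = 1 ∧ j ≤ cd (pb φ (mx s)) P' := by
  obtain ⟨u, κ, T, g, l, hP, -, hB⟩ := exists_ls h.fk (finite_singleton P)
    (finite_singleton (mx s)) (by rintro _ rfl; exact mx_mem_Car s)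
  have d := (hB _ rfl).1
  let γ : Fin n → BD K := fun i => if i.1 < j then mx s else mx u
  have d1 : ∀ i, Dsc (mx u) (γ i) ∧ Smp (γ i) := fun i => by
    unfold γ
    split_ifs
    exacts [⟨d, smp_mx s⟩, ⟨.refl l.smp, l.smp⟩]
  have k1 := (hF.nd _ _ (Bm.ff_κ h.fk P) (res P (mx s)) (res P (mx u)) (j + 1)
    (hy.res_smp h.fk P (smp_mx s)) (hy.res_nef h.fk P l.smp.nef)
    ((on_iff_big h.fk P l.smp.nef).1 (l.on P (hP P rfl))) (by omega)).2 k
  have k2 := h.num P.δ γ (isB_δ P) fun i => (d1 i).2.car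
  rw [I_δ, I_cons] at k2
  have k3 : cf P (Fin.cons (mx s) γ : Fin (n + 1) → BD K) ≠ 0 := by
    refine ne_of_gt (k1.trans_eq (congrArg _ (funext (Fin.cases ?_ fun i => ?_))))
    · simp
    · simp only [Fin.val_succ, Nat.add_lt_add_iff_right, Fin.cons_succ, γ]
      split_ifs <;> rfl
  obtain ⟨P', k4⟩ : ∃ P', pb φ P.δ P' * cf P' (fun i => pb φ (γ i)) ≠ 0 := by
    by_contra z
    exact k3 (k2.trans (finsum_eq_zero_of_forall_eq_zero fun P' => not_not.1 fun w => z ⟨P', w⟩))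
  obtain ⟨Q, q⟩ : ∃ Q, Lies φ P' Q := by_contra fun z => left_ne_zero_of_mul k4 (pb_of_not z _)
  obtain rfl : Q = P := by_contra fun z =>
    left_ne_zero_of_mul k4 (by rw [q.pb, Pl.δ_ne z, mul_zero])
  have o : On n (pb φ (mx u)) P' := by_contra fun z => right_ne_zero_of_mul k4
    (hy.exc h.fk' z (h.ok.smp l.smp) fun i => h.ok.dsc (d1 i).1)
  refine ⟨P', q, ?_, (hF.nd _ _ (Bm.ff_κ h.fk' P') (res P' (pb φ (mx s))) (res P' (pb φ (mx u))) j
    (hy.res_smp h.fk' P' (h.ok.smp (smp_mx s))) (hy.res_nef h.fk' P' (h.ok.nef l.smp.nef))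
    ((on_iff_big h.fk' P' (h.ok.nef l.smp.nef)).1 o) hj).1 ?_⟩
  · rcases h.tr.on _ l.smp l.big d P' o with ⟨x, -⟩ | ⟨R, x, -, z, -⟩
    · exact (q.not_trv x).elim
    · exact x.uniq q ▸ z
  · refine ((hy.cf_nef h.fk' P' fun i => h.ok.nef (d1 i).2.nef).lt_of_ne'
      (right_ne_zero_of_mul k4)).trans_eq (congrArg (I n P'.κ) (funext fun i => ?_))
    simp only [γ]
    split_ifs <;> rfl

end Cut

theorem cd_congr (hK : FF K (n + 1)) {A : BD K} (h : AmpOn Λ A) (P : Pl K) : cd A P = cd Λ P :=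
  (AmpOn.of_dsc (hy.res_dsc hK P h.1) (hy.res_dsc hK P h.dsc')).dim_eq

/-- **TRM** -/
theorem trm_of (hG : GEN) (hF : FLD) (hT : Sh.TS) : Mm.TRM := by
  intro n
  induction n with
  | zero =>
    exact fun K _ _ hK Λ Γ β P t d i _ => CarZ.int ((hT K hK Λ Γ t).2.2.2 β d i) P
  | succ n ih =>
    intro K _ _ hK Λ Γ β P t d i c
    obtain ⟨s, -, a⟩ := t.smp.exists_ampOn
    obtain ⟨K', _, _, φ, f, h⟩ := exists_cut hG hK (a.big_iff.1 t.big)
    obtain ⟨P', p, e, k⟩ := h.lift hF (j := n) (P := P) (by omega) (by rwa [cd_congr hK a])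
    have := ih K' h.fk' _ _ (pb φ β) P' (h.term t a.1) (h.ok.dsc d) (h.int t.smp t.big a.1 i)
      (by rwa [← cd_congr h.fk' (h.ok.ampOn a)])
    rwa [p.pb, e, Int.cast_one, one_mul] at this

end Vale.Agent.P287D.Pg
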